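import Vale.Agent.P171.Main

/-!
A bounded stable tempered radial pair potential on three dimensional space with a phase transition:
the pressure fails to be differentiable in the activity.
-/

namespace Vale.Agent.Results.P171.PhaseTransition

open MeasureTheory Filter Topology
open Vale.Agent.P171 (exists_kink pres phi kp aact box lxi Good conf cterm labint bweight)

/-- Pair energy of a configuration. -/
noncomputable def energy (φ : ℝ → ℝ) {N : ℕ} (x : Fin N → EuclideanSpace ℝ (Fin 3)) : ℝ :=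
  ∑ i, ∑ j, if i < j then φ ‖x i - x j‖ else 0

/-- The cube with side `L`. -/
def cube (L : ℝ) : Set (EuclideanSpace ℝ (Fin 3)) := {p | ∀ i, p i ∈ Set.Icc 0 L}

/-- The canonical partition function. -/
noncomputable def partitionZ (φ : ℝ → ℝ) (β L : ℝ) (N : ℕ) : ℝ :=
  (N.factorial : ℝ)⁻¹
    * ∫ x in Set.pi Set.univ (fun _ : Fin N => cube L), Real.exp (-β * energy φ x)

theorem cube_eq (L : ℝ) : cube L = box L := rfl

theorem energy_lower {K : ℝ} {b : Vale.Agent.P171.B1} (hb : Good K b) {N : ℕ}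
    (x : Fin N → EuclideanSpace ℝ (Fin 3)) : -(K / 2) * N ≤ energy (phi K b) x := by
  have h1 := Vale.Agent.P171.exponent_eq K b 0 x
  have h2 := Vale.Agent.P171.exponent_le hb 0 x
  have h3 := mul_nonneg (Vale.Agent.P171.good_nonneg hb)
    (Vale.Agent.P171.coinc_nonneg (Vale.Agent.P171.cell ∘ x))
  unfold energy
  linarith

theorem measurable_energy {φ : ℝ → ℝ} (hφ : Measurable φ) (N : ℕ) :
    Measurable (fun x : Fin N → EuclideanSpace ℝ (Fin 3) => energy φ x) := by
  unfold energy
  refine Finset.measurable_sum _ fun i _ => Finset.measurable_sum _ fun j _ => ?_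
  by_cases h : i < j
  · simp only [if_pos h]
    exact hφ.comp ((measurable_pi_apply i).sub (measurable_pi_apply j)).norm
  · simp only [if_neg h]
    exact measurable_const

theorem integrableOn_weight {K : ℝ} {b : Vale.Agent.P171.B1} (hb : Good K b) {L : ℝ} (hL : 0 ≤ L)
    (N : ℕ) : IntegrableOn (fun x => Real.exp (-1 * energy (phi K b) x))
      (Set.pi Set.univ (fun _ : Fin N => cube L)) := by
  refine Measure.integrableOn_of_bounded (M := Real.exp (K / 2 * N)) ?_ ?_ ?_
  · rw [volume_pi_pi, cube_eq, Vale.Agent.P171.volume_box hL]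
    exact ENNReal.prod_ne_top fun _ _ => ENNReal.ofReal_ne_top
  · exact (((measurable_energy (Vale.Agent.P171.measurable_phi K hb.1) N).const_mul _).exp
      ).aestronglyMeasurable
  · refine Eventually.of_forall fun x => ?_
    rw [Real.norm_eq_abs, abs_of_pos (Real.exp_pos _), Real.exp_le_exp]
    linarith [energy_lower hb x]

theorem cterm_eq {K : ℝ} {b : Vale.Agent.P171.B1} (hb : Good K b) {z : ℝ} (hz : 0 < z) {L : ℝ}
    (hL : 0 ≤ L) (N : ℕ) :
    cterm (kp K b) (aact K b (Real.log z)) (box L) N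
      = ENNReal.ofReal (z ^ N * partitionZ (phi K b) 1 L N) := by
  unfold cterm labint partitionZ
  rw [← mul_assoc, mul_comm (z ^ N), mul_assoc, ENNReal.ofReal_mul (by positivity),
    ENNReal.ofReal_inv_of_pos (by positivity), ENNReal.ofReal_natCast,
    ENNReal.ofReal_mul (by positivity),
    ofReal_integral_eq_lintegral_ofReal (integrableOn_weight hb hL N)
      (Eventually.of_forall fun x => (Real.exp_pos _).le),
    ← lintegral_const_mul' _ _ ENNReal.ofReal_ne_top]
  congr 1
  refine lintegral_congr fun x => ?_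
  unfold bweight
  rw [Fintype.card_fin, Vale.Agent.P171.exponent_eq, ← ENNReal.ofReal_mul (by positivity),
    ← Real.rpow_natCast, Real.rpow_def_of_pos hz, ← Real.exp_add]
  congr 2
  unfold energy
  ring

theorem partitionZ_nonneg (φ : ℝ → ℝ) (β L : ℝ) (N : ℕ) : 0 ≤ partitionZ φ β L N :=
  mul_nonneg (by positivity) (integral_nonneg fun _ => (Real.exp_pos _).le)

theorem grand_eq {K : ℝ} {b : Vale.Agent.P171.B1} (hb : Good K b) {z : ℝ} (hz : 0 < z) {L : ℝ}
    (hL : 0 ≤ L) :
    Summable (fun N : ℕ => z ^ N * partitionZ (phi K b) 1 L N) ∧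
      Real.log (∑' N : ℕ, z ^ N * partitionZ (phi K b) 1 L N) = lxi K b (Real.log z) L := by
  have hne := Vale.Agent.P171.conf_box_ne_top hb (Real.log z) hL
  unfold conf at hne
  simp only [cterm_eq hb hz hL] at hne
  have h0 : ∀ N, 0 ≤ z ^ N * partitionZ (phi K b) 1 L N := fun N =>
    mul_nonneg (by positivity) (partitionZ_nonneg _ _ _ _)
  have hs : Summable (fun N : ℕ => z ^ N * partitionZ (phi K b) 1 L N) :=
    (ENNReal.summable_toReal hne).congr fun N => ENNReal.toReal_ofReal (h0 N)
  refine ⟨hs, ?_⟩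
  unfold lxi conf
  simp only [cterm_eq hb hz hL]
  rw [← ENNReal.ofReal_tsum_of_nonneg h0 hs, ENNReal.toReal_ofReal (tsum_nonneg h0)]

/--
There is a bounded measurable radial pair potential on three dimensional space, stable and tempered,
whose limiting pressure is, at some inverse temperature, not differentiable at some positive activity.
-/
theorem result :
    ∃ (φ : ℝ → ℝ) (β : ℝ) (P0 : ℝ → ℝ),
      Measurable φ ∧ (∃ M : ℝ, ∀ r : ℝ, |φ r| ≤ M) ∧
      (∃ B : ℝ, ∀ (N : ℕ) (x : Fin N → EuclideanSpace ℝ (Fin 3)),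
        Function.Injective x → -B * N ≤ energy φ x) ∧
      (∃ C ε R₀ : ℝ, 0 < C ∧ 0 < ε ∧ 0 < R₀ ∧ ∀ r ≥ R₀, φ r ≤ C * r ^ (-3 - ε)) ∧
      0 < β ∧
      (∀ z > 0, (∀ L ≥ 0,
          (∀ N : ℕ, IntegrableOn (fun x => Real.exp (-β * energy φ x))
            (Set.pi Set.univ (fun _ : Fin N => cube L))) ∧
          Summable (fun N : ℕ => z ^ N * partitionZ φ β L N)) ∧
        Tendsto (fun L : ℝ => (L ^ 3)⁻¹ * Real.log (∑' N : ℕ, z ^ N * partitionZ φ β L N))
          atTop (𝓝 (P0 z))) ∧
      ∃ z > 0, ¬ DifferentiableAt ℝ P0 z := by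
  obtain ⟨K, b, hb, μ, hμ⟩ := exists_kink
  have hK := Vale.Agent.P171.good_nonneg hb
  refine ⟨phi K b, 1, fun z => pres K b (Real.log z), Vale.Agent.P171.measurable_phi K hb.1,
    ⟨K + ‖b‖, fun r => ?_⟩, ⟨K / 2, fun N x _ => energy_lower hb x⟩,
    ⟨1, 1, 2, one_pos, one_pos, two_pos, fun r hr => ?_⟩, one_pos, fun z hz => ⟨fun L hL => ?_, ?_⟩,
    Real.exp μ, Real.exp_pos μ, ?_⟩
  · have h := Vale.Agent.P171.abs_att_le b r
    have h' : |Vale.Agent.P171.rep K r| ≤ K := by
      unfold Vale.Agent.P171.rep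
      split_ifs
      · rw [abs_of_nonneg hK]
      · simpa using hK
    exact (abs_sub _ _).trans (add_le_add h' h)
  · have hs : Real.sqrt 3 < 2 := (Real.sqrt_lt' two_pos).2 (by norm_num)
    have h1 : ¬ r ≤ Real.sqrt 3 := not_le.2 (by linarith)
    have h2 := Vale.Agent.P171.att_nonneg hb.1 r
    have h3 : 0 ≤ (1 : ℝ) * r ^ ((-3 : ℝ) - 1) :=
      mul_nonneg zero_le_one (Real.rpow_nonneg (by linarith) _)
    simp only [phi, Vale.Agent.P171.rep, if_neg h1]
    linarith
  · exact ⟨fun N => integrableOn_weight hb hL N, (grand_eq hb hz hL).1⟩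
  · refine (Vale.Agent.P171.tendsto_pres hb (Real.log z)).congr' ?_
    filter_upwards [eventually_ge_atTop (0 : ℝ)] with L hL
    rw [(grand_eq hb hz hL).2]
  · intro h
    apply hμ
    have h' := h.comp μ Real.differentiableAt_exp
    simpa [Function.comp_def] using h'

end Vale.Agent.Results.P171.PhaseTransition
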